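import Vale.Agent.P125.H266.Unif
import Vale.Agent.P125.H266.Conv

/-!
# P125 : quasi-normed spaces of nontrivial Markov type, with uniform constants
-/

namespace Vale.Agent.Results.P125.QuasiNormedUniform

universe u v

/-- (1) A real normed space with Markov type `p > 1` is superreflexive and has an equivalent
uniformly smooth norm (the question as posed). (2) For all `p > 1`, `K` and `κ ≥ 1` there are `D`
and positive functions `δ`, `τ` such that every real vector space with a quasi-norm `q` of constant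
`κ` which satisfies the Markov type `p` inequality with constant `K` has seminorms `N₁`, `N₂` with
`Nᵢ ≤ q ≤ D Nᵢ`, `N₁` uniformly convex with `δ` and `N₂` uniformly smooth with `τ`. (3) The same
for `p ≥ 1` if `q` satisfies, at one single time `t ≥ 2`, the inequality
`E q(f(Z_t) - f(Z_0)) ^ p ≤ c E q(f(Z_1) - f(Z_0)) ^ p` with a constant `c < t ^ p` on symmetric
chains. (4) Conversely, for `p > 1`, `D` and `δ` there are a time `t ≥ 2` and a constant `c < t ^ p`
with which this inequality holds for every `q` with `N ≤ q ≤ D N`, `N` a seminorm which is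
uniformly convex with `δ`. -/
theorem result :
    (∀ (X : Type v) [NormedAddCommGroup X] [NormedSpace ℝ X] (p : ℝ), 1 < p →
      _root_.P125.HasMarkovType X p →
        _root_.P125.Superreflexive X ∧
          ∃ N : Seminorm ℝ X, _root_.P125.EquivalentNorm N ∧ _root_.P125.UniformlySmoothNorm N) ∧
    (∀ p K κ : ℝ, 1 < p → 1 ≤ κ →
      ∃ (D : ℝ) (δ τ : ℝ → ℝ), (∀ ε, 0 < ε → 0 < δ ε ∧ 0 < τ ε) ∧
        ∀ (X : Type u) [AddCommGroup X] [Module ℝ X] (q : X → ℝ), _root_.P125.IsQuasiNorm κ q →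
          _root_.P125.MarkovIneq q p K →
            ∃ N₁ N₂ : Seminorm ℝ X, (∀ x, N₁ x ≤ q x ∧ q x ≤ D * N₁ x) ∧
              (∀ x, N₂ x ≤ q x ∧ q x ≤ D * N₂ x) ∧
              _root_.P125.ConvexWith N₁ δ ∧ _root_.P125.SmoothWith N₂ τ) ∧
    (∀ (p c κ : ℝ) (t : ℕ), 1 ≤ p → 1 ≤ κ → 2 ≤ t → c < (t : ℝ) ^ p →
      ∃ (D : ℝ) (δ τ : ℝ → ℝ), (∀ ε, 0 < ε → 0 < δ ε ∧ 0 < τ ε) ∧
        ∀ (X : Type u) [AddCommGroup X] [Module ℝ X] (q : X → ℝ), _root_.P125.IsQuasiNorm κ q →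
          _root_.P125.OneTime q p t c →
            ∃ N₁ N₂ : Seminorm ℝ X, (∀ x, N₁ x ≤ q x ∧ q x ≤ D * N₁ x) ∧
              (∀ x, N₂ x ≤ q x ∧ q x ≤ D * N₂ x) ∧
              _root_.P125.ConvexWith N₁ δ ∧ _root_.P125.SmoothWith N₂ τ) ∧
    (∀ (p D : ℝ) (δ : ℝ → ℝ), 1 < p → (∀ ε, 0 < ε → 0 < δ ε) →
      ∃ (t : ℕ) (c : ℝ), 2 ≤ t ∧ c < (t : ℝ) ^ p ∧
        ∀ (X : Type u) [AddCommGroup X] [Module ℝ X] (q : X → ℝ) (N : Seminorm ℝ X),
          (∀ x, N x ≤ q x ∧ q x ≤ D * N x) → _root_.P125.ConvexWith N δ →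
            _root_.P125.OneTime q p t c) :=
  ⟨fun _ _ _ _ hp h => _root_.P125.superreflexive_of_hasMarkovType hp h,
    fun _ _ _ hp hκ => _root_.P125.H266.uniform_markov hp hκ,
    fun _ _ _ _ hp hκ ht hct => _root_.P125.H266.uniform_quasi hp hκ ht hct,
    fun _ D δ hp hδ => _root_.P125.H266.oneTime_uniform hp D δ hδ⟩

end Vale.Agent.Results.P125.QuasiNormedUniform
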