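import Vale.Agent.P125.H295.Conv

/-!
# P125 : one inequality at one time characterizes superreflexivity
-/

namespace Vale.Agent.Results.P125.SingleTimeInequality

/-- (1) A real normed space with Markov type `p > 1` is superreflexive and has an equivalent
uniformly smooth norm (the question as posed). (2) For every `p > 1`, a real normed space `X` is
superreflexive if and only if at one single time `t` the Markov chain inequality
`E |f(Z_t) - f(Z_0)| ^ p ≤ c E |f(Z_1) - f(Z_0)| ^ p` holds in `X`, for all symmetric chains, with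
some constant `c < t ^ p`. (3) Let `F` be a coarse Lipschitz embedding of `X` in a pseudometric
space `M`. If for one exponent `p`, one time `t` and one constant `c < t ^ p` that inequality holds
in `M`, then `X` is superreflexive and has an equivalent uniformly smooth norm. (4) With the
constant `t ^ p` the inequality holds in every pseudometric space. -/
theorem result :
    (∀ (X : Type*) [NormedAddCommGroup X] [NormedSpace ℝ X] (p : ℝ), 1 < p →
      _root_.P125.HasMarkovType X p →
        _root_.P125.Superreflexive X ∧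
          ∃ N : Seminorm ℝ X, _root_.P125.EquivalentNorm N ∧ _root_.P125.UniformlySmoothNorm N) ∧
    (∀ (X : Type*) [NormedAddCommGroup X] [NormedSpace ℝ X] (p : ℝ), 1 < p →
      (_root_.P125.Superreflexive X ↔
        ∃ (t : ℕ) (c : ℝ), 1 ≤ t ∧ c < (t : ℝ) ^ p ∧ _root_.P125.OneTimeIneq X p t c)) ∧
    (∀ (X : Type*) [NormedAddCommGroup X] [NormedSpace ℝ X]
      (M : Type*) [PseudoMetricSpace M] (F : X → M), _root_.P125.CoarseLipschitzEmbedding F →
      ∀ (p : ℝ), 1 ≤ p → ∀ (t : ℕ), 1 ≤ t → ∀ (c : ℝ), c < (t : ℝ) ^ p →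
      _root_.P125.OneTimeIneq M p t c →
        _root_.P125.Superreflexive X ∧
          ∃ N : Seminorm ℝ X, _root_.P125.EquivalentNorm N ∧ _root_.P125.UniformlySmoothNorm N) ∧
    (∀ (M : Type*) [PseudoMetricSpace M] (p : ℝ), 1 ≤ p → ∀ (t : ℕ), 1 ≤ t →
      _root_.P125.OneTimeIneq M p t ((t : ℝ) ^ p)) := by
  refine ⟨fun _ _ _ _ hp h => _root_.P125.superreflexive_of_hasMarkovType hp h,
    fun X _ _ p hp => ⟨fun h => _root_.P125.oneTime_of_superreflexive h hp, ?_⟩,
    fun _ _ _ _ _ _ hF _ hp _ ht _ hc h =>
      _root_.P125.superreflexive_of_oneTime hF hp ht hc h,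
    fun M _ _ hp _ ht => _root_.P125.oneTimeIneq_trivial M hp ht⟩
  rintro ⟨t, c, ht, hc, h⟩
  have hF : _root_.P125.CoarseLipschitzEmbedding (fun x : X => x) :=
    ⟨0, 1, 1, one_pos, fun x y _ => by rw [one_mul]; exact ⟨le_rfl, le_rfl⟩⟩
  exact (_root_.P125.superreflexive_of_oneTime hF hp.le ht hc h).1

end Vale.Agent.Results.P125.SingleTimeInequality
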