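import Vale.Agent.P125.H154.Main

/-!
# P125 : universal test chains for superreflexivity
-/

namespace Vale.Agent.Results.P125.TestChains

universe u v

/-- (1) A real normed space with Markov type `p > 1` is superreflexive and has an equivalent
uniformly smooth norm (the question as posed). (2) There is a sequence of finite symmetric Markov
chains `P T` (`T ≥ 1`), random walks on `16 T`-regular multigraphs, such that every real normed
space `X` in which `E |f(Z_T) - f(Z_0)| ^ p ≤ (T / 5) ^ p E |f(Z_1) - f(Z_0)| ^ p` holds on `P T`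
for one `T` and one `p ≥ 1` is superreflexive. (3) Conversely, in a superreflexive space, for
`p > 1` and `ε > 0`, for all large `T` and all symmetric chains that inequality holds with
`(ε T) ^ p`. (4) For all `p`, `t`, all constants `c < t ^ p` and all `D` there is one finite
symmetric chain such that `X` is superreflexive as soon as `X` has a coarse Lipschitz embedding of
distortion at most `D` in a pseudometric space in which the inequality with `t` and `c` holds on
this chain. -/
theorem result :
    (∀ (X : Type u) [NormedAddCommGroup X] [NormedSpace ℝ X] (p : ℝ), 1 < p →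
      _root_.P125.HasMarkovType X p →
        _root_.P125.Superreflexive X ∧
          ∃ N : Seminorm ℝ X, _root_.P125.EquivalentNorm N ∧ _root_.P125.UniformlySmoothNorm N) ∧
    (∃ (S : ℕ → Type) (_ : ∀ T, Fintype (S T)) (_ : ∀ T, DecidableEq (S T))
      (P : ∀ T, Matrix (S T) (S T) ℝ), ∀ T : ℕ, 1 ≤ T →
        _root_.P125.IsSymmChain (P T) ∧ (∀ i j, ∃ k : ℕ, P T i j = k / (16 * T)) ∧
        ∀ (X : Type u) [NormedAddCommGroup X] [NormedSpace ℝ X] (p : ℝ), 1 ≤ p →
          _root_.P125.ChainIneq (P T) X p T (((T : ℝ) / 5) ^ p) →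
            _root_.P125.Superreflexive X) ∧
    (∀ (X : Type u) [NormedAddCommGroup X] [NormedSpace ℝ X], _root_.P125.Superreflexive X →
      ∀ p : ℝ, 1 < p → ∀ ε : ℝ, 0 < ε → ∃ T₀ : ℕ, ∀ T : ℕ, T₀ ≤ T →
        ∀ (S : Type) [Fintype S] [DecidableEq S] (P : Matrix S S ℝ), _root_.P125.IsSymmChain P →
          _root_.P125.ChainIneq P X p T ((ε * T) ^ p)) ∧
    (∀ p : ℝ, 1 ≤ p → ∀ t : ℕ, 1 ≤ t → ∀ c : ℝ, c < (t : ℝ) ^ p → ∀ D : ℝ,
      ∃ (S : Type) (_ : Fintype S) (_ : DecidableEq S) (P : Matrix S S ℝ),
        _root_.P125.IsSymmChain P ∧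
        ∀ (X : Type u) [NormedAddCommGroup X] [NormedSpace ℝ X] (M : Type v)
          [PseudoMetricSpace M] (F : X → M) (θ a : ℝ), 0 < a →
          (∀ x y, θ ≤ dist x y →
            a * dist x y ≤ dist (F x) (F y) ∧ dist (F x) (F y) ≤ D * a * dist x y) →
          _root_.P125.ChainIneq P M p t c →
            _root_.P125.Superreflexive X ∧
              ∃ N : Seminorm ℝ X,
                _root_.P125.EquivalentNorm N ∧ _root_.P125.UniformlySmoothNorm N) :=
  ⟨fun _ _ _ _ hp h => _root_.P125.superreflexive_of_hasMarkovType hp h,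
    _root_.P125.H154.univ_chains,
    fun _ _ _ h _ hp _ hε => _root_.P125.H154.small_of_superreflexive h hp hε,
    fun _ hp _ ht _ hc D => _root_.P125.H154.sharp_chain hp ht hc D⟩

end Vale.Agent.Results.P125.TestChains
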